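import Vale.Agent.P355.H191.Mathlib3
import Vale.Agent.P355.H349.Mean4
import Vale.Agent.P355.H349.Frame

/-! The last step: from a certificate to a statement without own definitions. -/

namespace Vale.Agent.P355.H191

open Vale.Agent.P355 H349

/-- `N(6) = 3` from a function of mean zero which is positive on the configurations. -/
theorem three_of_cert {T : M6 → (Fin 6 → ℂ) → ℝ} (hT : MeanZero T)
    (h : ∀ V be, Q4 V be → 0 < T V be) :
    IsGreatest {n : ℕ | ∃ v : Fin n → Fin 6 → Fin 6 → ℂ,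
      (∀ i k l, ∑ r, star (v i k r) * v i l r = if k = l then 1 else 0) ∧
      ∀ i j, i ≠ j → ∀ k l, ‖∑ r, star (v i k r) * v j l r‖ ^ 2 = 1 / 6} 3 :=
  isGreatest_three fun _ B hB => le_three hT h B hB

/-- `N(6) ≤ 5` from the absence of complete sets. -/
theorem five_of_no_seven (h : ∀ B : Fin 7 → M6, ¬ IsMUBs B) (n : ℕ)
    (v : Fin n → Fin 6 → Fin 6 → ℂ)
    (hv : ∀ i k l, ∑ r, star (v i k r) * v i l r = if k = l then 1 else 0)
    (hu : ∀ i j, i ≠ j → ∀ k l, ‖∑ r, star (v i k r) * v j l r‖ ^ 2 = 1 / 6) : n ≤ 5 :=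
  le_of (fun _ _ hB' => H665.le_five_of_no_seven h hB') n v hv hu

end Vale.Agent.P355.H191
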