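import Vale.Agent.P355.H191.Mathlib3

/-! The last steps for the targets `N(6) ≤ 4` and `N(6) = 3`: statements without own definitions. -/

namespace Vale.Agent.P355.H191

open Vale.Agent.P355

/-- restriction of a set of mutually unbiased bases. -/
theorem restrict {m n : ℕ} (hmn : m ≤ n) {B : Fin n → M6} (hB : IsMUBs B) :
    IsMUBs fun i : Fin m => B (Fin.castLE hmn i) :=
  ⟨fun _ => hB.1 _, fun _ _ hij => hB.2 _ _ fun h => hij (Fin.castLE_injective hmn h)⟩

/-- no `k + 1` bases, so at most `k`. -/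
theorem le_of_none {k : ℕ} (h : ∀ B : Fin (k + 1) → M6, ¬ IsMUBs B) (n : ℕ) (B : Fin n → M6)
    (hB : IsMUBs B) : n ≤ k := by
  by_contra hn
  exact h _ (restrict (show k + 1 ≤ n by omega) hB)

/-- `N(6) = 3` from the absence of four bases. -/
theorem three_of_no_four (h : ∀ B : Fin 4 → M6, ¬ IsMUBs B) :
    IsGreatest {n : ℕ | ∃ v : Fin n → Fin 6 → Fin 6 → ℂ,
      (∀ i k l, ∑ r, star (v i k r) * v i l r = if k = l then 1 else 0) ∧
      ∀ i j, i ≠ j → ∀ k l, ‖∑ r, star (v i k r) * v j l r‖ ^ 2 = 1 / 6} 3 :=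
  isGreatest_three (le_of_none h)

/-- `N(6) ≤ 4` from the absence of five bases. -/
theorem four_of_no_five (h : ∀ B : Fin 5 → M6, ¬ IsMUBs B) (n : ℕ)
    (v : Fin n → Fin 6 → Fin 6 → ℂ)
    (hv : ∀ i k l, ∑ r, star (v i k r) * v i l r = if k = l then 1 else 0)
    (hu : ∀ i j, i ≠ j → ∀ k l, ‖∑ r, star (v i k r) * v j l r‖ ^ 2 = 1 / 6) : n ≤ 4 :=
  le_of (le_of_none h) n v hv hu

end Vale.Agent.P355.H191
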