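import Vale.Agent.P355.H665.Three

/-! The value `3`, and upper bounds, for mutually unbiased bases of `ℂ⁶`, without any definition:
`v i k` is the `k`-th vector of the `i`-th orthonormal basis. -/

namespace Vale.Agent.P355.H191

open Matrix Vale.Agent.P355

/-- sets of `n` mutually unbiased bases of `ℂ⁶`, in both formulations. -/
theorem mubs_iff (n : ℕ) :
    (∃ v : Fin n → Fin 6 → Fin 6 → ℂ,
      (∀ i k l, ∑ r, star (v i k r) * v i l r = if k = l then 1 else 0) ∧
      ∀ i j, i ≠ j → ∀ k l, ‖∑ r, star (v i k r) * v j l r‖ ^ 2 = 1 / 6) ↔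
    ∃ B : Fin n → M6, IsMUBs B := by
  constructor
  · rintro ⟨v, hv, hu⟩
    refine ⟨fun i => Matrix.of fun r k => v i k r, fun i => ?_, fun i j hij k l => ?_⟩
    · unfold Unitary6
      ext k l
      rw [Matrix.mul_apply, Matrix.one_apply, ← hv i k l]
      rfl
    · rw [Complex.normSq_eq_norm_sq, Matrix.mul_apply]
      exact hu i j hij k l
  · rintro ⟨B, hB⟩
    refine ⟨fun i k r => B i r k, fun i k l => ?_, fun i j hij k l => ?_⟩
    · have h := congrFun (congrFun (hB.1 i) k) l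
      rw [Matrix.mul_apply, Matrix.one_apply] at h
      exact h
    · have h := hB.2 i j hij k l
      rw [Complex.normSq_eq_norm_sq, Matrix.mul_apply] at h
      exact h

/-- three mutually unbiased bases exist; so an upper bound `3` gives the value. -/
theorem isGreatest_three (h : ∀ (n : ℕ) (B : Fin n → M6), IsMUBs B → n ≤ 3) :
    IsGreatest {n : ℕ | ∃ v : Fin n → Fin 6 → Fin 6 → ℂ,
      (∀ i k l, ∑ r, star (v i k r) * v i l r = if k = l then 1 else 0) ∧
      ∀ i j, i ≠ j → ∀ k l, ‖∑ r, star (v i k r) * v j l r‖ ^ 2 = 1 / 6} 3 := by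
  refine ⟨(mubs_iff 3).2 H665.three_exist, fun n hn => ?_⟩
  obtain ⟨B, hB⟩ := (mubs_iff n).1 hn
  exact h n B hB

/-- upper bounds. -/
theorem le_of {m : ℕ} (h : ∀ (n : ℕ) (B : Fin n → M6), IsMUBs B → n ≤ m) (n : ℕ)
    (v : Fin n → Fin 6 → Fin 6 → ℂ)
    (hv : ∀ i k l, ∑ r, star (v i k r) * v i l r = if k = l then 1 else 0)
    (hu : ∀ i j, i ≠ j → ∀ k l, ‖∑ r, star (v i k r) * v j l r‖ ^ 2 = 1 / 6) : n ≤ m := by
  obtain ⟨B', hB'⟩ := (mubs_iff n).1 ⟨v, hv, hu⟩
  exact h n B' hB'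

end Vale.Agent.P355.H191
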